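import Vale.Agent.P181.H382.Defs
import Vale.Agent.P181.TL.H639.BalB
import Vale.Agent.P181.SZR4.Ren

set_option autoImplicit false

/-!
# P181, LL, L4: flattening
-/

open MvPolynomial

namespace Vale.Agent.P181.H382.H221

open Vale.Agent.P181.T4 (HW)
open Vale.Agent.P181.TL (KK)
open Vale.Agent.P181.SZR4 (vm vm_injective coeff_ren ren_mem_HW)
open Vale.Agent.P181.TL.H639 (stable)

/-- Moves from larger to smaller entries. -/
theorem le_of {K : Type*} [Field K] [CharZero K] {ρ σ : Type*} [Fintype ρ] [DecidableEq ρ]
    [DecidableEq σ] [Fintype σ] {H : (σ → ℕ) → Submodule K (MvPolynomial (ρ × σ) K)}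
    (hH : H463.Stable H) {β : σ → ℕ} (d : σ → ℕ) (hd : ∑ j, d j = ∑ j, β j)
    (hβ : ∀ i j, d i < β i → β j < d j → β i ≤ β j) :
    Module.finrank K (H d) ≤ Module.finrank K (H β) := by
  obtain ⟨k, hk⟩ : ∃ k, ∑ j, (d j - β j) = k := ⟨_, rfl⟩
  induction k generalizing d with
  | zero =>
    have h1 : ∀ j, d j ≤ β j := by
      intro j
      have := (Finset.sum_eq_zero_iff.mp hk) j (Finset.mem_univ j)
      omega
    have h2 : d = β := by
      funext j
      by_contra hne
      have hlt : d j < β j := lt_of_le_of_ne (h1 j) hne
      have : ∑ j, d j < ∑ j, β j :=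
        Finset.sum_lt_sum (fun i _ => h1 i) ⟨j, Finset.mem_univ j, hlt⟩
      omega
    rw [h2]
  | succ k ih =>
    obtain ⟨j, hj⟩ : ∃ j, β j < d j := by
      by_contra hno
      push Not at hno
      have : ∑ j, (d j - β j) = 0 :=
        Finset.sum_eq_zero fun j _ => Nat.sub_eq_zero_of_le (hno j)
      omega
    obtain ⟨i, hi⟩ : ∃ i, d i < β i := by
      by_contra hno
      push Not at hno
      have : ∑ j, β j < ∑ j, d j :=
        Finset.sum_lt_sum (fun i _ => hno i) ⟨j, Finset.mem_univ j, hj⟩
      omega
    have hij : i ≠ j := by
      rintro rfl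
      omega
    set c : σ → ℕ := fun s => if s = j then d j - 1 else d s with hc
    have hdc : d = c + Pi.single j 1 := by
      funext s
      by_cases hs : s = j
      · subst hs
        simp only [hc, Pi.add_apply, Pi.single_eq_same, if_true]
        omega
      · simp only [hc, Pi.add_apply, Pi.single_eq_of_ne hs, if_neg hs, add_zero]
    have hci : c i = d i := by simp only [hc, if_neg hij]
    have hcj : c j = d j - 1 := by simp only [hc, if_true]
    have h3 := hβ i j hi hj
    have hle : c i ≤ c j := by omega
    have hstep := hH.step c hij hle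
    rw [← hdc] at hstep
    have hval : ∀ s, (c + Pi.single i 1 : σ → ℕ) s =
        if s = j then d j - 1 else if s = i then d i + 1 else d s := by
      intro s
      by_cases hs : s = j
      · subst hs
        simp only [Pi.add_apply, Pi.single_eq_of_ne hij.symm, add_zero, if_true, hcj]
      · by_cases hsi : s = i
        · subst hsi
          simp only [Pi.add_apply, Pi.single_eq_same, if_neg hs, if_true, hci]
        · simp only [Pi.add_apply, Pi.single_eq_of_ne hsi, if_neg hs, if_neg hsi, add_zero, hc]
    refine hstep.trans (ih (c + Pi.single i 1) ?_ ?_ ?_)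
    · rw [← hd]
      conv_rhs => rw [hdc]
      simp only [Pi.add_apply, Finset.sum_add_distrib, Finset.sum_pi_single', Finset.mem_univ,
        if_true]
    · intro x y hx hy
      rw [hval] at hx hy
      have hx' : d x < β x := by
        by_cases h1 : x = j
        · rw [if_pos h1] at hx
          subst h1
          omega
        · rw [if_neg h1] at hx
          by_cases h2 : x = i
          · rw [if_pos h2] at hx
            subst h2
            omega
          · rwa [if_neg h2] at hx
      have hy' : β y < d y := by
        by_cases h1 : y = j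
        · rw [if_pos h1] at hy
          subst h1
          omega
        · rw [if_neg h1] at hy
          by_cases h2 : y = i
          · rw [if_pos h2] at hy
            subst h2
            omega
          · rwa [if_neg h2] at hy
      exact hβ x y hx' hy'
    · have e : ∀ s, (c + Pi.single i 1 : σ → ℕ) s - β s + (if s = j then 1 else 0) =
          d s - β s := by
        intro s
        rw [hval]
        by_cases hs : s = j
        · subst hs
          simp only [if_true]
          omega
        · by_cases hsi : s = i
          · subst hsi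
            simp only [if_neg hs, if_true]
            omega
          · simp only [if_neg hs, if_neg hsi, add_zero]
      have h4 := Finset.sum_congr rfl (fun s (_ : s ∈ (Finset.univ : Finset σ)) => e s)
      rw [Finset.sum_add_distrib, Finset.sum_ite_eq' Finset.univ j, if_pos (Finset.mem_univ j),
        hk] at h4
      omega

/-- New empty columns. -/
theorem ren_mem_KK {m : ℕ} {σ τ : Type} [Fintype σ] [Fintype τ] {g : σ → τ}
    (hg : Function.Injective g) {f : MvPolynomial (Fin m × σ) ℂ} {d : σ → ℕ} {mu : Fin m → ℕ}
    (hf : f ∈ KK m σ d mu) :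
    rename (vm m g) f ∈ KK m τ (Function.extend g d (fun _ => 0)) mu := by
  refine ⟨ren_mem_HW hg hf.1, fun v hv j => ?_⟩
  obtain ⟨u, hu, h1, h2⟩ := coeff_ren hg hv
  by_cases hj : j ∈ Set.range g
  · obtain ⟨j', rfl⟩ := hj
    rw [hg.extend_apply, ← hf.2 u hu j']
    exact Finset.sum_congr rfl fun i _ => h1 i j'
  · rw [Function.extend_apply' _ _ _ (by simpa using hj)]
    exact Finset.sum_eq_zero fun i _ => h2 i j hj

theorem finrank_KK_le {m : ℕ} {σ τ : Type} [Fintype σ] [Fintype τ] {g : σ → τ}
    (hg : Function.Injective g) (d : σ → ℕ) (mu : Fin m → ℕ) :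
    Module.finrank ℂ (KK m σ d mu) ≤
      Module.finrank ℂ (KK m τ (Function.extend g d (fun _ => 0)) mu) := by
  let φ : KK m σ d mu →ₗ[ℂ] KK m τ (Function.extend g d (fun _ => 0)) mu :=
    (rename (R := ℂ) (vm m g)).toLinearMap.restrict fun f hf => ren_mem_KK hg hf
  refine LinearMap.finrank_le_finrank_of_injective (f := φ) ?_
  intro x y hxy
  apply Subtype.ext
  exact rename_injective _ (vm_injective hg) (congrArg Subtype.val hxy)

/-- **(L4)** flattening. -/
theorem flatN : FlatN := by
  classical
  intro k a n F tau f c han hf hc hsf hsc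
  let s : Equiv.Perm (Fin n) := Tuple.sort c
  have hs : Monotone (c ∘ s) := Tuple.monotone_sort c
  let g : Fin a → Fin n := fun i => s ⟨n - a + i, by have := i.2; omega⟩
  have hg : Function.Injective g := by
    intro i j hij
    have h1 := congrArg Fin.val (s.injective hij)
    simp only at h1
    ext
    omega
  refine (finrank_KK_le hg f tau).trans ?_
  refine le_of (stable k n tau) _ ?_ ?_
  · rw [hsc, ← hsf]
    symm
    refine Fintype.sum_of_injective g hg _ _ (fun j hj => ?_) (fun j => ?_)
    · exact Function.extend_apply' _ _ _ (by simpa using hj)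
    · exact (hg.extend_apply _ _ _).symm
  · intro i j hi hj
    have hi' : i ∉ Set.range g := by
      rintro ⟨i', rfl⟩
      rw [hg.extend_apply] at hi
      have h1 := hf i'
      have h2 := hc (g i')
      omega
    have hj' : j ∈ Set.range g := by
      by_contra h
      rw [Function.extend_apply' _ _ _ (by simpa using h)] at hj
      omega
    obtain ⟨j', rfl⟩ := hj'
    have h1 : ((s.symm i : Fin n) : ℕ) < n - a := by
      by_contra h
      push Not at h
      apply hi'
      have h2 := (s.symm i).2
      refine ⟨⟨(s.symm i : ℕ) - (n - a), by omega⟩, ?_⟩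
      change s ⟨n - a + ((s.symm i : ℕ) - (n - a)), _⟩ = i
      rw [← Equiv.eq_symm_apply]
      ext
      simp only
      omega
    have h2 : c (s (s.symm i)) ≤ c (g j') := by
      refine hs (a := s.symm i) (b := ⟨n - a + j', by have := j'.2; omega⟩) ?_
      rw [Fin.le_def]
      simp only
      omega
    rwa [Equiv.apply_symm_apply] at h2

end Vale.Agent.P181.H382.H221
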